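import Vale.Agent.P065.UB.H759.Sl
import Vale.Agent.P065.UB.H295.Dim

/-!
# P065, upper bound, line P: the dimension condition of the grid (helper151)

`stDimP : StDimP`.
-/

set_option autoImplicit false

namespace Vale.Agent.P065.UB.H151

open Finset Vale.Agent.P065.UB Vale.Agent.P065.UB.H759

/-- pigeonhole: one of few centres has many points within `r` -/
theorem one_centre (X P : Finset ℝ) (r : ℝ) (h : ∀ x ∈ X, ∃ u ∈ P, |x - u| < r)
    (hX : X.Nonempty) : ∃ u ∈ P, (#X : ℝ) ≤ #P * #{x ∈ X | |x - u| < r} := by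
  classical
  by_contra hcon
  push Not at hcon
  have h1 : X ⊆ P.biUnion (fun u => {x ∈ X | |x - u| < r}) := by
    intro x hx
    obtain ⟨u, hu, h2⟩ := h x hx
    exact mem_biUnion.2 ⟨u, hu, mem_filter.2 ⟨hx, h2⟩⟩
  have h2 : (#X : ℝ) ≤ ∑ u ∈ P, (#{x ∈ X | |x - u| < r} : ℝ) := by
    exact_mod_cast (card_le_card h1).trans card_biUnion_le
  have hP : P.Nonempty := by
    obtain ⟨x, hx⟩ := hX
    obtain ⟨u, hu, _⟩ := h x hx
    exact ⟨u, hu⟩
  have hP0 : (0 : ℝ) < #P := by exact_mod_cast hP.card_pos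
  have h3 : ∑ u ∈ P, (#{x ∈ X | |x - u| < r} : ℝ) < ∑ _u ∈ P, (#X : ℝ) / #P := by
    refine sum_lt_sum_of_nonempty hP fun u hu => ?_
    rw [lt_div_iff₀ hP0]
    have := hcon u hu
    linarith
  rw [sum_const, nsmul_eq_mul, mul_div_cancel₀ _ hP0.ne'] at h3
  linarith

/-- **[DIMP]** -/
theorem stDimP_of (hDim : StDim) : StDimP := by
  classical
  intro s E
  obtain ⟨c₃, c, hc⟩ := hDim (2 * E + 2)
  refine ⟨c + 2 * c₃ + 60, fun C0 hC K L lam δ Q ι W a b Y J w₀ ε p₁ p₂ P3 G0 hS X hX hlX r hr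
    P hP hPc => ?_⟩
  have hfr := hS.fr
  have hpj := hfr.pj
  have hL1 := hpj.L1
  have hL0 : 0 < L := by linarith
  have hδ := hpj.dpos
  have hlam1 := hpj.lam1
  have hlam0 : 0 < lam := by linarith
  have hN := hpj.N0
  have hbig := hfr.Lbig
  have hdl := hpj.dlam
  have hd0 : 0 < L ^ 8 * δ := by positivity
  have hr0 : 0 < r := lt_of_lt_of_le hd0 hr
  -- the basic identity
  have key : (L ^ 8 * δ) ^ 2 * lam ^ 3 * lam = L ^ 16 * (δ * lam ^ 2) ^ 2 := by ring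
  by_cases hr40 : 1 / 40 < r
  · -- trivial case
    have h1 : L ^ 60 ≤ lam := hpj.powL (by omega)
    have h2 : (L ^ 8 * δ) ^ 2 * lam ^ 3 * lam ≤ r ^ 2 * lam := by
      rw [key]
      calc L ^ 16 * (δ * lam ^ 2) ^ 2 ≤ L ^ 16 * L ^ 2 := by gcongr
        _ = L ^ 18 := by ring
        _ ≤ (1 / 40) ^ 2 * L ^ 60 := by
            have h3 : (1600 : ℝ) ≤ L := by
              refine le_trans ?_ hbig
              norm_num
            have h4 : L ^ 18 * 1600 ≤ L ^ 60 := by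
              calc L ^ 18 * 1600 ≤ L ^ 18 * L := by gcongr
                _ = L ^ 19 := by ring
                _ ≤ L ^ 60 := pow_le_pow_right₀ hL1 (by norm_num)
            linarith
        _ ≤ r ^ 2 * lam := by gcongr
    exact le_of_mul_le_mul_right h2 hlam0
  -- the main case
  push Not at hr40
  have hXne : X.Nonempty := by
    rw [nonempty_iff_ne_empty]
    rintro rfl
    simp only [card_empty, Nat.cast_zero, mul_zero] at hlX
    linarith
  obtain ⟨u, huP, hu⟩ := one_centre X P r hP hXne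
  set X1 : Finset ℝ := {x ∈ X | |x - u| < r} with hX1
  -- `lam ≤ L ^ (2 E) #X1`
  have h1 : lam ≤ L ^ (2 * E) * #X1 := by
    calc lam ≤ L ^ E * #X := hlX
      _ ≤ L ^ E * (#P * #X1) := by gcongr
      _ ≤ L ^ E * (L ^ E * #X1) := by gcongr
      _ = _ := by ring
  -- the points over `X1`
  set G1 : Finset Pt := {q ∈ G0 | rd (L ^ 8 * δ) (cc ε p₁ p₂ p₂ q) ∈ X1} with hG1
  have h2 : (#Q : ℝ) * #X1 ≤ L * lam * #G1 := by
    have h3 : (#G1 : ℝ) = ∑ x ∈ X1, (#{q ∈ G0 | rd (L ^ 8 * δ) (cc ε p₁ p₂ p₂ q) = x} : ℝ) := by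
      have h4 : #G1 = ∑ x ∈ X1, #{q ∈ G1 | rd (L ^ 8 * δ) (cc ε p₁ p₂ p₂ q) = x} :=
        card_eq_sum_card_fiberwise (fun q hq => (mem_filter.1 hq).2)
      rw [h4]
      push_cast
      refine sum_congr rfl fun x hx => ?_
      congr 2
      ext q
      simp only [hG1, mem_filter]
      constructor
      · rintro ⟨⟨h5, _⟩, h6⟩
        exact ⟨h5, h6⟩
      · rintro ⟨h5, h6⟩
        exact ⟨⟨h5, by rw [h6]; exact hx⟩, h6⟩
    rw [h3, mul_sum]
    calc (#Q : ℝ) * #X1 = ∑ x ∈ X1, (#Q : ℝ) := by rw [sum_const, nsmul_eq_mul, mul_comm]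
      _ ≤ _ := sum_le_sum fun x hx => by
          have h5 := hX x (mem_filter.1 hx).1
          convert h5 using 4
  have h3 : (#Q : ℝ) ≤ L ^ (2 * E + 2) * #G1 := by
    have h4 : (#Q : ℝ) * lam ≤ L ^ (2 * E + 1) * #G1 * lam := by
      calc (#Q : ℝ) * lam ≤ #Q * (L ^ (2 * E) * #X1) := by gcongr
        _ = L ^ (2 * E) * (#Q * #X1) := by ring
        _ ≤ L ^ (2 * E) * (L * lam * #G1) := by gcongr
        _ = _ := by ring
    have h5 := le_of_mul_le_mul_right h4 hlam0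
    calc (#Q : ℝ) ≤ L ^ (2 * E + 1) * #G1 := h5
      _ ≤ L ^ (2 * E + 2) * #G1 := by
          gcongr
          norm_num
  -- geometry of the points of `G1`
  have hgeo : ∀ q ∈ G1, |cc ε p₁ p₂ p₂ q - u| ≤ 2 * r ∧ 9 / 10 ≤ |cc ε p₁ p₂ p₂ q| ∧
      0 < hh ε p₁ p₂ q ∧ hh ε p₁ p₂ q ≤ 3 := by
    intro q hq
    obtain ⟨hq0, hqX⟩ := mem_filter.1 hq
    obtain ⟨hj1, hj2, hs⟩ := hS.jn q hq0
    have hlow := hfr.hh_low hj1 hs
    refine ⟨?_, ?_, hfr.hh_pos hj1 hs, hfr.hh_up hj1⟩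
    · have h4 := (mem_filter.1 hqX).2
      have h5 := rd_near (t := cc ε p₁ p₂ p₂ q) hd0
      calc |cc ε p₁ p₂ p₂ q - u| ≤ |cc ε p₁ p₂ p₂ q - rd (L ^ 8 * δ) (cc ε p₁ p₂ p₂ q)|
            + |rd (L ^ 8 * δ) (cc ε p₁ p₂ p₂ q) - u| := abs_sub_le _ _ _
        _ ≤ L ^ 8 * δ + r := add_le_add h5 h4.le
        _ ≤ _ := by linarith
    · obtain ⟨w, hw, hJ, ha, _⟩ := hj2
      have h6 := hpj.subJ w hw _ hJ
      exact hfr.cc_low hfr.m2 hw h6.1 h6.2 ha hlow
  have hG1ne : G1.Nonempty := by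
    rw [nonempty_iff_ne_empty]
    intro h0
    rw [h0] at h3
    simp only [card_empty, Nat.cast_zero, mul_zero] at h3
    linarith
  have hu8 : 8 / 10 ≤ |u| := by
    obtain ⟨q, hq⟩ := hG1ne
    obtain ⟨h4, h5, _⟩ := hgeo q hq
    have h6 : |cc ε p₁ p₂ p₂ q| ≤ |cc ε p₁ p₂ p₂ q - u| + |u| := by
      have := abs_add_le (cc ε p₁ p₂ p₂ q - u) u
      rwa [sub_add_cancel] at this
    linarith
  have hu0 : u ≠ 0 := by
    intro h0
    rw [h0, abs_zero] at hu8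
    linarith
  have huinv : |1 / u| ≤ 10 / 8 := by
    rw [abs_div, abs_one, div_le_iff₀ (by positivity)]
    linarith
  -- the strip
  set a₀ : ℝ := s0 p₁ p₂ + ε / u with ha₀
  set v₀ : ℝ := p₂.2 - a₀ * p₂.1 with hv₀
  have ha3 : |a₀| ≤ 3 * L := by
    calc |a₀| ≤ |s0 p₁ p₂| + |ε / u| := abs_add_le _ _
      _ ≤ 11 / 10 + 10 / 8 := by
          have h4 : |ε / u| = |1 / u| := by
            rw [abs_div, abs_div, hfr.absε, abs_one]
          rw [h4]
          exact add_le_add hfr.s0_abs' huinv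
      _ ≤ 3 * L := by linarith
  have hstrip : ∀ q ∈ G1, |q.2 - a₀ * q.1 - v₀| ≤ 8 * r := by
    intro q hq
    obtain ⟨h4, _, h5, h6⟩ := hgeo q hq
    set H := hh ε p₁ p₂ q with hH
    have h7 : H = ε * ((q.2 - p₂.2) - s0 p₁ p₂ * (q.1 - p₂.1)) := by
      have := hh_sub ε p₁ p₂ p₂ q
      rw [hfr.hh2, sub_zero] at this
      rw [hH]
      exact this
    have h8 : (q.1 - p₂.1) - u * H = (cc ε p₁ p₂ p₂ q - u) * H := by
      unfold cc
      rw [← hH]
      field_simp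
    have h9 : |(q.1 - p₂.1) - u * H| ≤ 6 * r := by
      rw [h8, abs_mul, abs_of_pos h5]
      calc _ ≤ 2 * r * 3 := by gcongr
        _ = _ := by ring
    have h10 : q.2 - a₀ * q.1 - v₀ = -(ε * (1 / u)) * ((q.1 - p₂.1) - u * H) := by
      have h11 : q.2 - p₂.2 - s0 p₁ p₂ * (q.1 - p₂.1) = ε * H := by
        rw [h7, ← mul_assoc, hfr.sqε, one_mul]
      have h12 : -(ε * (1 / u)) * ((q.1 - p₂.1) - u * H)
          = ε * H - ε / u * (q.1 - p₂.1) := by
        field_simp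
        ring
      rw [h12, ← h11, hv₀, ha₀]
      ring
    rw [h10, abs_mul, abs_neg, abs_mul, hfr.absε, one_mul]
    calc |1 / u| * |(q.1 - p₂.1) - u * H| ≤ 10 / 8 * (6 * r) := by gcongr
      _ ≤ 8 * r := by linarith
  have hδr : δ ≤ 8 * r := by
    have h4 : δ ≤ L ^ 8 * δ := by
      have : 1 ≤ L ^ 8 := one_le_pow₀ hL1
      nlinarith
    linarith
  have hfin := hc C0 (by omega) K L lam δ Q ι W a b Y J hpj a₀ v₀ (8 * r) ha3 hδr (by
    refine h3.trans ?_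
    have h4 : #G1 ≤ #{q ∈ Act K lam Q W Y | |q.2 - a₀ * q.1 - v₀| ≤ 8 * r} := by
      refine card_le_card fun q hq => ?_
      rw [mem_filter]
      have h5 : q ∈ Gd K L lam δ Q W Y := hS.gdG (mem_filter.1 hq).1
      unfold Gd at h5
      exact ⟨(mem_filter.1 h5).1, hstrip q hq⟩
    have h6 : (#G1 : ℝ) ≤ #{q ∈ Act K lam Q W Y | |q.2 - a₀ * q.1 - v₀| ≤ 8 * r} := by
      exact_mod_cast h4
    gcongr)
  have h8L : 8 ≤ L := le_trans (by norm_num) hbig
  have h4 : δ * lam ^ 2 ≤ L ^ (c₃ + 1) * r := by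
    calc δ * lam ^ 2 ≤ L ^ c₃ * (8 * r) := hfin
      _ ≤ L ^ c₃ * (L * r) := by gcongr
      _ = _ := by ring
  have h5 : (L ^ 8 * δ) ^ 2 * lam ^ 3 * lam ≤ r ^ 2 * lam := by
    rw [key]
    calc L ^ 16 * (δ * lam ^ 2) ^ 2 ≤ L ^ 16 * (L ^ (c₃ + 1) * r) ^ 2 := by gcongr
      _ = r ^ 2 * L ^ (2 * c₃ + 18) := by ring
      _ ≤ r ^ 2 * lam := by
          gcongr
          exact hpj.powL (by omega)
  exact le_of_mul_le_mul_right h5 hlam0

/-- **[DIMP]** -/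
theorem stDimP : StDimP := stDimP_of Vale.Agent.P065.UB.H295.stDim

end Vale.Agent.P065.UB.H151
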