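import Vale.Agent.P065.UB.H759.Base

/-!
# P065, upper bound, line P: block [U2-FP] (helper151)

`stFP_of : StThird → StFP`: a `δ`-square contains at most `L ^ 34 N / lam ^ 2` good points.
-/

set_option autoImplicit false

namespace Vale.Agent.P065.UB.H151

open Finset Vale.Agent.P065.UB Vale.Agent.P065.UB.H759

/-- a closed box as four half-planes -/
noncomputable def BoxS (x0 x1 y0 y1 : ℝ) : Finset (ℝ × ℝ × ℝ) :=
  {(-1, 0, -x0), (1, 0, x1), (0, -1, -y0), (0, 1, y1)}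

lemma card_boxS (x0 x1 y0 y1 : ℝ) : #(BoxS x0 x1 y0 y1) ≤ 8 := by
  unfold BoxS
  exact le_trans (Finset.card_le_four) (by norm_num)

lemma pol_box {x0 x1 y0 y1 : ℝ} {v : Pt} :
    Pol (BoxS x0 x1 y0 y1) v ↔ (x0 ≤ v.1 ∧ v.1 ≤ x1) ∧ y0 ≤ v.2 ∧ v.2 ≤ y1 := by
  unfold Pol BoxS
  simp only [Finset.mem_insert, Finset.mem_singleton, forall_eq_or_imp, forall_eq]
  constructor
  · rintro ⟨h1, h2, h3, h4⟩
    exact ⟨⟨by linarith, by linarith⟩, by linarith, by linarith⟩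
  · rintro ⟨⟨h1, h2⟩, h3, h4⟩
    exact ⟨by linarith, by linarith, by linarith, by linarith⟩

lemma sq_box {δ : ℝ} (hδ : 0 < δ) (Q : Finset Pt) (q : Pt) (hq : q ∈ Q) :
    ∃ S : Finset (ℝ × ℝ × ℝ), #S ≤ 8 ∧ ∀ p ∈ Q, (Pol S p ↔ sqc δ p = sqc δ q) := by
  classical
  set T : Finset Pt := {p ∈ Q | sqc δ p = sqc δ q} with hT
  have hTne : T.Nonempty := ⟨q, by simp [hT, hq]⟩
  obtain ⟨p1, hp1, hm1⟩ := T.exists_max_image Prod.fst hTne
  obtain ⟨p2, hp2, hm2⟩ := T.exists_max_image Prod.snd hTne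
  have hp1' : sqc δ p1 = sqc δ q := (Finset.mem_filter.mp hp1).2
  have hp2' : sqc δ p2 = sqc δ q := (Finset.mem_filter.mp hp2).2
  refine ⟨BoxS ((sqc δ q).1 * δ) p1.1 ((sqc δ q).2 * δ) p2.2, card_boxS _ _ _ _, ?_⟩
  intro p hp
  rw [pol_box]
  constructor
  · rintro ⟨⟨h1, h2⟩, h3, h4⟩
    have e1 : (sqc δ p).1 = (sqc δ q).1 := by
      apply le_antisymm
      · have : ⌊p.1 / δ⌋ ≤ ⌊p1.1 / δ⌋ := Int.floor_le_floor (by gcongr)
        calc (sqc δ p).1 = ⌊p.1 / δ⌋ := rfl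
          _ ≤ ⌊p1.1 / δ⌋ := this
          _ = (sqc δ p1).1 := rfl
          _ = (sqc δ q).1 := by rw [hp1']
      · show (sqc δ q).1 ≤ ⌊p.1 / δ⌋
        rw [Int.le_floor, le_div_iff₀ hδ]
        exact h1
    have e2 : (sqc δ p).2 = (sqc δ q).2 := by
      apply le_antisymm
      · have : ⌊p.2 / δ⌋ ≤ ⌊p2.2 / δ⌋ := Int.floor_le_floor (by gcongr)
        calc (sqc δ p).2 = ⌊p.2 / δ⌋ := rfl
          _ ≤ ⌊p2.2 / δ⌋ := this
          _ = (sqc δ p2).2 := rfl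
          _ = (sqc δ q).2 := by rw [hp2']
      · show (sqc δ q).2 ≤ ⌊p.2 / δ⌋
        rw [Int.le_floor, le_div_iff₀ hδ]
        exact h3
    exact Prod.ext e1 e2
  · intro h
    have hpT : p ∈ T := by simp [hT, hp, h]
    have f1 : (sqc δ q).1 * δ ≤ p.1 := by
      rw [← h, ← le_div_iff₀ hδ]
      exact Int.floor_le _
    have f2 : (sqc δ q).2 * δ ≤ p.2 := by
      rw [← h, ← le_div_iff₀ hδ]
      exact Int.floor_le _
    exact ⟨⟨f1, hm1 p hpT⟩, f2, hm2 p hpT⟩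

lemma sq_near {δ : ℝ} (hδ : 0 < δ) {p q : Pt} (h : sqc δ p = sqc δ q) :
    |p.1 - q.1| ≤ δ ∧ |p.2 - q.2| ≤ δ := by
  have h1 : ⌊p.1 / δ⌋ = ⌊q.1 / δ⌋ := congrArg Prod.fst h
  have h2 : ⌊p.2 / δ⌋ = ⌊q.2 / δ⌋ := congrArg Prod.snd h
  have a1 := Int.abs_sub_lt_one_of_floor_eq_floor h1
  have a2 := Int.abs_sub_lt_one_of_floor_eq_floor h2
  rw [← sub_div, abs_div, abs_of_pos hδ, div_lt_one hδ] at a1 a2
  exact ⟨a1.le, a2.le⟩

lemma fp_arith {n lam K L N M Tl Ts : ℝ} {C0 : ℕ} (hn : 0 ≤ n) (hlam : 1 ≤ lam) (hK : 2 ≤ K)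
    (hKL : K ≤ L) (hN : 0 ≤ N) (hM0 : 0 ≤ M) (hTs : 0 ≤ Ts) (hC0 : 2 ≤ C0)
    (h1 : n * lam ≤ K ^ 6 * (Tl + Ts)) (h2 : L ^ C0 * lam ^ 2 * Ts ≤ 6 * L ^ 2 * lam * N)
    (h3 : Tl ^ 3 ≤ (6 * L ^ 2 * lam) ^ 2 * (L * (N / lam) * M ^ 2)) (h4 : M ≤ L * n) :
    lam ^ 2 * n ≤ L ^ 34 * N := by
  have hL2 : (2 : ℝ) ≤ L := le_trans hK hKL
  have hL1 : (1 : ℝ) ≤ L := by linarith
  have hL0 : (0 : ℝ) < L := by linarith
  have hK0 : (0 : ℝ) ≤ K := by linarith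
  have hlam0 : (0 : ℝ) < lam := by linarith
  have hTsb : lam * Ts ≤ 6 * N := by
    have e1 : L ^ 2 * lam ^ 2 * Ts ≤ 6 * L ^ 2 * lam * N := by
      refine le_trans ?_ h2
      have : L ^ 2 ≤ L ^ C0 := pow_le_pow_right₀ hL1 hC0
      gcongr
    have e2 : 0 < L ^ 2 * lam := by positivity
    have e3 : (L ^ 2 * lam) * (lam * Ts) ≤ (L ^ 2 * lam) * (6 * N) := by
      calc (L ^ 2 * lam) * (lam * Ts) = L ^ 2 * lam ^ 2 * Ts := by ring
        _ ≤ 6 * L ^ 2 * lam * N := e1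
        _ = (L ^ 2 * lam) * (6 * N) := by ring
    exact le_of_mul_le_mul_left e3 e2
  rcases le_total Tl Ts with hc | hc
  · have e1 : n * lam ≤ 2 * K ^ 6 * Ts := by
      calc n * lam ≤ K ^ 6 * (Tl + Ts) := h1
        _ ≤ K ^ 6 * (Ts + Ts) := by gcongr
        _ = 2 * K ^ 6 * Ts := by ring
    have e2 : lam ^ 2 * n ≤ 12 * K ^ 6 * N := by
      calc lam ^ 2 * n = lam * (n * lam) := by ring
        _ ≤ lam * (2 * K ^ 6 * Ts) := by gcongr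
        _ = 2 * K ^ 6 * (lam * Ts) := by ring
        _ ≤ 2 * K ^ 6 * (6 * N) := by gcongr
        _ = 12 * K ^ 6 * N := by ring
    have e3 : (12 : ℝ) ≤ L ^ 4 := by
      calc (12 : ℝ) ≤ 2 ^ 4 := by norm_num
        _ ≤ L ^ 4 := by gcongr
    calc lam ^ 2 * n ≤ 12 * K ^ 6 * N := e2
      _ ≤ L ^ 4 * L ^ 6 * N := by gcongr
      _ = L ^ 10 * N := by ring
      _ ≤ L ^ 34 * N := by
        have : L ^ 10 ≤ L ^ 34 := pow_le_pow_right₀ hL1 (by norm_num)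
        gcongr
  · rcases hn.eq_or_lt with h0 | hnpos
    · rw [← h0]; simp; positivity
    have e1 : n * lam ≤ 2 * K ^ 6 * Tl := by
      calc n * lam ≤ K ^ 6 * (Tl + Ts) := h1
        _ ≤ K ^ 6 * (Tl + Tl) := by gcongr
        _ = 2 * K ^ 6 * Tl := by ring
    have e2 : (n * lam) ^ 3 ≤ 8 * K ^ 18 * Tl ^ 3 := by
      calc (n * lam) ^ 3 ≤ (2 * K ^ 6 * Tl) ^ 3 := by gcongr
        _ = 8 * K ^ 18 * Tl ^ 3 := by ring
    have e3 : Tl ^ 3 ≤ 36 * L ^ 7 * lam * N * n ^ 2 := by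
      calc Tl ^ 3 ≤ (6 * L ^ 2 * lam) ^ 2 * (L * (N / lam) * M ^ 2) := h3
        _ ≤ (6 * L ^ 2 * lam) ^ 2 * (L * (N / lam) * (L * n) ^ 2) := by gcongr
        _ = 36 * L ^ 7 * lam * N * n ^ 2 := by field_simp; ring
    have e4 : (lam * n ^ 2) * (lam ^ 2 * n) ≤ (lam * n ^ 2) * (288 * K ^ 18 * L ^ 7 * N) := by
      calc (lam * n ^ 2) * (lam ^ 2 * n) = (n * lam) ^ 3 := by ring
        _ ≤ 8 * K ^ 18 * Tl ^ 3 := e2
        _ ≤ 8 * K ^ 18 * (36 * L ^ 7 * lam * N * n ^ 2) := by gcongr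
        _ = (lam * n ^ 2) * (288 * K ^ 18 * L ^ 7 * N) := by ring
    have e5 : lam ^ 2 * n ≤ 288 * K ^ 18 * L ^ 7 * N :=
      le_of_mul_le_mul_left e4 (by positivity)
    have e6 : (288 : ℝ) ≤ L ^ 9 := by
      calc (288 : ℝ) ≤ 2 ^ 9 := by norm_num
        _ ≤ L ^ 9 := by gcongr
    calc lam ^ 2 * n ≤ 288 * K ^ 18 * L ^ 7 * N := e5
      _ ≤ L ^ 9 * L ^ 18 * L ^ 7 * N := by gcongr
      _ = L ^ 34 * N := by ring


section pieces

variable {C0 : ℕ} {K L lam δ : ℝ} {Q : Finset Pt} {ι : Type} {W : Finset ι}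
  {a b : ι → ℝ} {Y : ι → Finset Pt} {J : ι → Finset (Pt × Pt)}

open Classical in
/-- number of points of `Y w` in the square of `q` -/
noncomputable def yq (δ : ℝ) (Y : ι → Finset Pt) (q : Pt) (w : ι) : ℝ :=
  (#{p ∈ Y w | sqc δ p = sqc δ q} : ℝ)

lemma yq_nonneg (q : Pt) (w : ι) : 0 ≤ yq δ Y q w := by
  unfold yq; positivity

open Classical in
/-- the windows that meet the square -/
noncomputable def Wm (δ : ℝ) (W : Finset ι) (Y : ι → Finset Pt) (q : Pt) : Finset ι :=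
  {w ∈ W | ∃ p ∈ Y w, sqc δ p = sqc δ q}

lemma wm_tube (h : PJ C0 K L lam δ Q W a b Y J) (q : Pt) (w : ι) (hw : w ∈ Wm δ W Y q) :
    w ∈ W ∧ |q.2 - a w * q.1 - b w| ≤ 6 * δ := by
  classical
  obtain ⟨hwW, p, hpY, hpq⟩ := Finset.mem_filter.mp hw
  refine ⟨hwW, ?_⟩
  have t1 := h.tube w hwW p hpY
  obtain ⟨d1, d2⟩ := sq_near h.dpos hpq
  obtain ⟨s0, s1⟩ := h.slope w hwW
  have e : q.2 - a w * q.1 - b w =
      (p.2 - a w * p.1 - b w) + -(p.2 - q.2) + a w * (p.1 - q.1) := by ring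
  have hd := h.dpos
  have e2 : |a w * (p.1 - q.1)| ≤ δ := by
    rw [abs_mul, abs_of_nonneg s0]
    calc a w * |p.1 - q.1| ≤ 1 * δ := by gcongr
      _ = δ := one_mul _
  have e3 : |(p.2 - a w * p.1 - b w) + -(p.2 - q.2)| ≤ 4 * δ + δ := by
    refine le_trans (abs_add_le _ _) ?_
    rw [abs_neg]
    linarith
  calc |q.2 - a w * q.1 - b w|
      ≤ |(p.2 - a w * p.1 - b w) + -(p.2 - q.2)| + |a w * (p.1 - q.1)| := by
        rw [e]; exact abs_add_le _ _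
    _ ≤ (4 * δ + δ) + δ := by linarith
    _ = 6 * δ := by ring

open Classical in
lemma inc (h : PJ C0 K L lam δ Q W a b Y J) (q : Pt) :
    (#{p ∈ Act K lam Q W Y | sqc δ p = sqc δ q} : ℝ) * lam ≤
      K ^ 6 * ∑ w ∈ Wm δ W Y q, yq δ Y q w := by
  have hK : (0 : ℝ) ≤ K := by linarith [h.two]
  have e2 : ∑ p ∈ {p ∈ Act K lam Q W Y | sqc δ p = sqc δ q}, (#{w ∈ W | p ∈ Y w}) ≤
      ∑ w ∈ Wm δ W Y q, #{p ∈ Y w | sqc δ p = sqc δ q} := by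
    have e1 : ∑ p ∈ {p ∈ Act K lam Q W Y | sqc δ p = sqc δ q}, (#{w ∈ W | p ∈ Y w}) =
        ∑ w ∈ W, #{p ∈ {p ∈ Act K lam Q W Y | sqc δ p = sqc δ q} | p ∈ Y w} := by
      simp only [Finset.card_filter]
      exact Finset.sum_comm
    have e3 : ∑ w ∈ Wm δ W Y q, #{p ∈ {p ∈ Act K lam Q W Y | sqc δ p = sqc δ q} | p ∈ Y w} =
        ∑ w ∈ W, #{p ∈ {p ∈ Act K lam Q W Y | sqc δ p = sqc δ q} | p ∈ Y w} := by
      apply Finset.sum_subset (Finset.filter_subset _ _)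
      intro w hw hw'
      rw [Finset.card_eq_zero, Finset.filter_eq_empty_iff]
      intro p hp hpY
      exact hw' (Finset.mem_filter.mpr ⟨hw, p, hpY, (Finset.mem_filter.mp hp).2⟩)
    rw [e1, ← e3]
    apply Finset.sum_le_sum
    intro w _
    apply Finset.card_le_card
    intro p hp
    obtain ⟨hpA, hpY⟩ := Finset.mem_filter.mp hp
    exact Finset.mem_filter.mpr ⟨hpY, (Finset.mem_filter.mp hpA).2⟩
  have e5 : ∑ p ∈ {p ∈ Act K lam Q W Y | sqc δ p = sqc δ q}, (#{w ∈ W | p ∈ Y w} : ℝ) ≤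
      ∑ w ∈ Wm δ W Y q, yq δ Y q w := by
    unfold yq
    exact_mod_cast e2
  calc (#{p ∈ Act K lam Q W Y | sqc δ p = sqc δ q} : ℝ) * lam
      = ∑ p ∈ {p ∈ Act K lam Q W Y | sqc δ p = sqc δ q}, lam := by
        rw [Finset.sum_const, nsmul_eq_mul]
    _ ≤ ∑ p ∈ {p ∈ Act K lam Q W Y | sqc δ p = sqc δ q}, K ^ 6 * (#{w ∈ W | p ∈ Y w} : ℝ) := by
        apply Finset.sum_le_sum
        intro p hp
        have hpA : p ∈ Act K lam Q W Y := (Finset.mem_filter.mp hp).1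
        exact (Finset.mem_filter.mp hpA).2
    _ = K ^ 6 * ∑ p ∈ {p ∈ Act K lam Q W Y | sqc δ p = sqc δ q}, (#{w ∈ W | p ∈ Y w} : ℝ) := by
        rw [Finset.mul_sum]
    _ ≤ K ^ 6 * ∑ w ∈ Wm δ W Y q, yq δ Y q w := by
        exact mul_le_mul_of_nonneg_left e5 (by positivity)

open Classical in
lemma large (h : PJ C0 K L lam δ Q W a b Y J) {q : Pt} (hq : q ∈ Q) :
    ∑ w ∈ {w ∈ Wm δ W Y q | (#Q : ℝ) ≤ L ^ C0 * lam ^ 2 * yq δ Y q w}, yq δ Y q w ^ 3 ≤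
      L * (#Q / lam) * (#{p ∈ Q | sqc δ p = sqc δ q} : ℝ) ^ 2 := by
  obtain ⟨S, hS8, hS⟩ := sq_box h.dpos Q q hq
  have hMP : ({p ∈ Q | Pol S p} : Finset Pt) = {p ∈ Q | sqc δ p = sqc δ q} :=
    Finset.filter_congr (fun p hp => hS p hp)
  have hYP : ∀ w ∈ W, (#{p ∈ Y w | Pol S p} : ℝ) = yq δ Y q w := by
    intro w hw
    unfold yq
    rw [Finset.filter_congr (fun p hp => hS p (h.subY w hw hp))]
  have hst := h.star S hS8
  rw [hMP] at hst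
  refine le_trans ?_ hst
  have e : ∀ w ∈ ({w ∈ Wm δ W Y q | (#Q : ℝ) ≤ L ^ C0 * lam ^ 2 * yq δ Y q w} : Finset ι),
      yq δ Y q w ^ 3 = (#{p ∈ Y w | Pol S p} : ℝ) ^ 3 := by
    intro w hw
    have hwW : w ∈ W := (Finset.mem_filter.mp (Finset.mem_filter.mp hw).1).1
    rw [hYP w hwW]
  rw [Finset.sum_congr rfl e]
  apply Finset.sum_le_sum_of_subset_of_nonneg
  · intro w hw
    obtain ⟨hwm, hwl⟩ := Finset.mem_filter.mp hw
    have hwW : w ∈ W := (Finset.mem_filter.mp hwm).1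
    refine Finset.mem_filter.mpr ⟨hwW, ?_⟩
    rw [hYP w hwW]
    exact hwl
  · intros; positivity

open Classical in
lemma small (m : ℝ) {q : Pt} (hm : (#(Wm δ W Y q) : ℝ) ≤ m) (T N : ℝ) (hN : 0 ≤ N) :
    T * ∑ w ∈ {w ∈ Wm δ W Y q | ¬ N ≤ T * yq δ Y q w}, yq δ Y q w ≤ m * N := by
  rw [Finset.mul_sum]
  calc ∑ w ∈ {w ∈ Wm δ W Y q | ¬ N ≤ T * yq δ Y q w}, T * yq δ Y q w
      ≤ ∑ w ∈ {w ∈ Wm δ W Y q | ¬ N ≤ T * yq δ Y q w}, N := by
        apply Finset.sum_le_sum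
        intro w hw
        exact (not_le.mp (Finset.mem_filter.mp hw).2).le
    _ = (#{w ∈ Wm δ W Y q | ¬ N ≤ T * yq δ Y q w} : ℝ) * N := by
        rw [Finset.sum_const, nsmul_eq_mul]
    _ ≤ m * N := by
        have : (#{w ∈ Wm δ W Y q | ¬ N ≤ T * yq δ Y q w} : ℝ) ≤ #(Wm δ W Y q) := by
          exact_mod_cast Finset.card_le_card (Finset.filter_subset _ _)
        exact mul_le_mul_of_nonneg_right (le_trans this hm) hN

end pieces

/-- **[U2-FP]** -/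
theorem stFP_of (hThird : StThird) : StFP := by
  classical
  obtain ⟨c₁, hc₁⟩ := hThird
  refine ⟨34, max c₁ 2, ?_⟩
  intro C0 hC0 K L lam δ Q ι W a b Y J h q hq
  have hC01 : c₁ ≤ C0 := le_trans (le_max_left _ _) hC0
  have hC02 : 2 ≤ C0 := le_trans (le_max_right _ _) hC0
  have hK2 : (2 : ℝ) ≤ K := h.two
  have hK1 : (1 : ℝ) ≤ K := by linarith
  have hKL : K ≤ L := le_trans (le_self_pow₀ hK1 (by omega)) h.KL
  have hL1 : (1 : ℝ) ≤ L := by linarith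
  have hlam1 : (1 : ℝ) ≤ lam := le_trans (one_le_pow₀ hL1) h.Llam
  have hlam0 : (0 : ℝ) < lam := by linarith
  have hqA : q ∈ Act K lam Q W Y := (Finset.mem_filter.mp hq).1
  have hqQ : q ∈ Q := (Finset.mem_filter.mp hqA).1
  have hqL : (#{p ∈ Q | sqc δ p = sqc δ q} : ℝ) ≤
      L * #{p ∈ Act K lam Q W Y | sqc δ p = sqc δ q} := (Finset.mem_filter.mp hq).2
  have hWmcard : (#(Wm δ W Y q) : ℝ) ≤ 6 * L ^ 2 * lam := by
    have h3 := hc₁ C0 hC01 K L lam δ Q ι W a b Y J h q (h.box q hqQ).1 (h.box q hqQ).2 6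
      (by norm_num)
    refine le_trans ?_ h3
    exact_mod_cast Finset.card_le_card (by
      intro w hw
      obtain ⟨hwW, hwt⟩ := wm_tube h q w hw
      exact Finset.mem_filter.mpr ⟨hwW, hwt⟩)
  have hinc := inc h q
  have hlarge := large h hqQ
  have hsmall := small (δ := δ) (W := W) (Y := Y) (6 * L ^ 2 * lam) hWmcard (L ^ C0 * lam ^ 2)
    (#Q : ℝ) (by positivity)
  have hsplit := (Finset.sum_filter_add_sum_filter_not (Wm δ W Y q)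
    (fun w => (#Q : ℝ) ≤ L ^ C0 * lam ^ 2 * yq δ Y q w) (fun w => yq δ Y q w)).symm
  rw [hsplit] at hinc
  have hl3 : (∑ w ∈ {w ∈ Wm δ W Y q | (#Q : ℝ) ≤ L ^ C0 * lam ^ 2 * yq δ Y q w},
      yq δ Y q w) ^ 3 ≤ (6 * L ^ 2 * lam) ^ 2 *
        (L * (#Q / lam) * (#{p ∈ Q | sqc δ p = sqc δ q} : ℝ) ^ 2) := by
    refine le_trans (pow_sum_le_card_mul_sum_pow (fun w _ => yq_nonneg q w) 2) ?_
    have h3 : (#{w ∈ Wm δ W Y q | (#Q : ℝ) ≤ L ^ C0 * lam ^ 2 * yq δ Y q w} : ℝ) ≤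
        6 * L ^ 2 * lam := by
      refine le_trans ?_ hWmcard
      exact_mod_cast Finset.card_le_card (Finset.filter_subset _ _)
    exact mul_le_mul (pow_le_pow_left₀ (by positivity) h3 2) hlarge
      (Finset.sum_nonneg (fun w _ => pow_nonneg (yq_nonneg q w) _)) (by positivity)
  have hGn : (#{p ∈ Gd K L lam δ Q W Y | sqc δ p = sqc δ q} : ℝ) ≤
      (#{p ∈ Act K lam Q W Y | sqc δ p = sqc δ q} : ℝ) := by
    exact_mod_cast Finset.card_le_card (Finset.filter_subset_filter _ (Finset.filter_subset _ _))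
  have hfin := fp_arith (n := (#{p ∈ Act K lam Q W Y | sqc δ p = sqc δ q} : ℝ)) (by positivity)
    hlam1 hK2 hKL (by positivity) (by positivity)
    (Finset.sum_nonneg (fun w _ => yq_nonneg q w)) hC02 hinc hsmall hl3 hqL
  refine le_trans ?_ hfin
  exact mul_le_mul_of_nonneg_left hGn (by positivity)

/-- **[U2-FP]**, unconditional -/
theorem stFP : StFP := stFP_of stThird

end Vale.Agent.P065.UB.H151
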